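import Vale.Agent.P022K.FI.X1Z
import Vale.Agent.P022K.OR.Orx
import Vale.Agent.P022K.OR.Ctr
import Vale.Agent.P022K.OR.Fg
import Vale.Agent.P022K.OR.Sym

/-!
# P022K: the rows on the Shimura curves without hypotheses
-/

set_option autoImplicit false

noncomputable section

namespace Vale.Agent.P022K.Clo

open Sh

/-- **row TWX** -/
theorem twx : AllQ fun X => FI.X1.TWX X := fun _ _ _ X => FI.X1.twx X

/-- **row CTR** -/
theorem ctr : OR.CTR := OR.ctr OR.fg

/-- **row ORX** -/
theorem orx : AllQ fun X => OR.ORX X := fun F _ _ X =>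
  OR.orx_of X OR.sym ctr FI.noa (left _ _ _ X.ok) (can F X) (FI.arix X) (FI.rdx X)

end Vale.Agent.P022K.Clo
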